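import Vale.Agent.P208.Bdl.B2

namespace Vale.Agent.Results.P208.Main

open Vale.Agent.P208

/-- There is a compact doubling subset of `ℓ²` without bi-Lipschitz embedding into any `ℝ^k`;
moreover there is an absolute `lam` such that for all `k` and `D` some finite `lam`-doubling subset
of `ℓ²` does not embed into `ℝ^k` with distortion at most `D`. -/
theorem result :
    (∃ X : Set (lp (fun _ : ℕ => ℝ) 2), IsCompact X ∧ (∃ lam : ℕ, Doubling lam X) ∧
      ∀ (k : ℕ) (D : ℝ), ¬ Embeds X k D) ∧
    (∃ lam : ℕ, ∀ (k : ℕ) (D : ℝ), ∃ X : Set (lp (fun _ : ℕ => ℝ) 2), X.Finite ∧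
      Doubling lam X ∧ ¬ Embeds X k D) :=
  ⟨exists_compact_counterexample, exists_finite_counterexamples⟩

end Vale.Agent.Results.P208.Main
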